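import Vale.Agent.P011.E6.Defs

/-!
The action of quaternionic matrices on hermitian matrices over octonions: formal properties.
-/

namespace Vale.Agent.P011.E6.H369

open Vale.Agent.P011.MPQ Vale.Agent.P011.D4 Vale.Agent.P011.D4.Oct

open Matrix

variable {F : Type} [Field F] {a b c : Fˣ}

theorem star_mul_nrd (x : Qt a b) : star x * x = nrd x • (1 : Qt a b) := by
  apply QuaternionAlgebra.ext <;> simp [nrd] <;> ring

theorem mul_star_nrd (x : Qt a b) : x * star x = nrd x • (1 : Qt a b) := by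
  apply QuaternionAlgebra.ext <;> simp [nrd] <;> ring

theorem nrd_st (x : Qt a b) : nrd (star x) = nrd x := by
  simp [nrd]

theorem nrd_sm (t : F) (x : Qt a b) : nrd (t • x) = t ^ 2 * nrd x := by
  simp only [nrd, QuaternionAlgebra.re_smul, QuaternionAlgebra.imI_smul,
    QuaternionAlgebra.imJ_smul, QuaternionAlgebra.imK_smul, smul_eq_mul]
  ring

theorem alg_eq (t : F) : algebraMap F (Qt a b) t = t • 1 := Algebra.algebraMap_eq_smul_one t

theorem eq_of_star [CharZero F] {q : Qt a b} (h : star q = q) : algebraMap F _ q.re = q := by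
  have h1 := congrArg QuaternionAlgebra.imI h
  have h2 := congrArg QuaternionAlgebra.imJ h
  have h3 := congrArg QuaternionAlgebra.imK h
  simp only [QuaternionAlgebra.imI_star, QuaternionAlgebra.imJ_star,
    QuaternionAlgebra.imK_star] at h1 h2 h3
  apply QuaternionAlgebra.ext
  · simp
  · have e : (algebraMap F (Qt a b) q.re).imI = 0 := by simp
    rw [e]
    linear_combination (1 / 2 : F) * h1
  · have e : (algebraMap F (Qt a b) q.re).imJ = 0 := by simp
    rw [e]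
    linear_combination (1 / 2 : F) * h2
  · have e : (algebraMap F (Qt a b) q.re).imK = 0 := by simp
    rw [e]
    linear_combination (1 / 2 : F) * h3

theorem mat_herm (x : Alb a b c) : (Alb.mat x).IsHermitian := by
  apply Matrix.IsHermitian.ext
  intro i j
  fin_cases i <;> fin_cases j <;> simp [Alb.mat]

theorem mat_ofMV [CharZero F] {S : Matrix (Fin 3) (Fin 3) (Qt a b)} (hS : S.IsHermitian)
    (v : Fin 3 → Qt a b) : Alb.mat (Alb.ofMV S v : Alb a b c) = S := by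
  have h : ∀ i j, star (S j i) = S i j := fun i j => hS.apply i j
  ext1 i j
  fin_cases i <;> fin_cases j <;> simp [Alb.mat, Alb.ofMV, eq_of_star (h _ _), h]

theorem vec_ofMV (S : Matrix (Fin 3) (Fin 3) (Qt a b)) (v : Fin 3 → Qt a b) :
    Alb.vec (Alb.ofMV S v : Alb a b c) = v := by
  ext1 i
  fin_cases i <;> rfl

theorem ofMV_mat (x : Alb a b c) : Alb.ofMV (Alb.mat x) (Alb.vec x) = x := by
  apply Alb.ext <;> simp [Alb.mat, Alb.ofMV, Alb.vec]

theorem mat_act [CharZero F] (m : (Matrix (Fin 3) (Fin 3) (Qt a b))ˣ) (κ : Qt a b)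
    (x : Alb a b c) : Alb.mat (Alb.act m κ x) = (m : Matrix (Fin 3) (Fin 3) (Qt a b)) *
      Alb.mat x * (m : Matrix (Fin 3) (Fin 3) (Qt a b))ᴴ := by
  rw [Alb.act, mat_ofMV]
  exact Matrix.isHermitian_mul_mul_conjTranspose _ (mat_herm x)

theorem vec_act (m : (Matrix (Fin 3) (Fin 3) (Qt a b))ˣ) (κ : Qt a b)
    (x : Alb a b c) : Alb.vec (Alb.act m κ x) = fun i => κ * Matrix.vecMul (Alb.vec x)
      ((m⁻¹ : (Matrix (Fin 3) (Fin 3) (Qt a b))ˣ) : Matrix (Fin 3) (Fin 3) (Qt a b)) i := by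
  rw [Alb.act, vec_ofMV]

theorem ext_mv {x y : Alb a b c} (h : Alb.mat x = Alb.mat y) (h' : Alb.vec x = Alb.vec y) :
    x = y := by
  rw [← ofMV_mat x, ← ofMV_mat y, h, h']

theorem act_inv [CharZero F] (m : (Matrix (Fin 3) (Fin 3) (Qt a b))ˣ) {κ κ' : Qt a b}
    (h : κ * κ' = 1) (x : Alb a b c) : Alb.act m κ (Alb.act m⁻¹ κ' x) = x := by
  apply ext_mv
  · rw [mat_act, mat_act]
    have h1 : (m : Matrix (Fin 3) (Fin 3) (Qt a b)) *
      ((m⁻¹ : (Matrix (Fin 3) (Fin 3) (Qt a b))ˣ) : Matrix (Fin 3) (Fin 3) (Qt a b)) = 1 :=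
      m.mul_inv
    have h2 : ((m⁻¹ : (Matrix (Fin 3) (Fin 3) (Qt a b))ˣ) : Matrix (Fin 3) (Fin 3) (Qt a b))ᴴ *
      (m : Matrix (Fin 3) (Fin 3) (Qt a b))ᴴ = 1 := by
      rw [← Matrix.conjTranspose_mul, h1, Matrix.conjTranspose_one]
    calc _ = ((m : Matrix (Fin 3) (Fin 3) (Qt a b)) *
      ((m⁻¹ : (Matrix (Fin 3) (Fin 3) (Qt a b))ˣ) : Matrix (Fin 3) (Fin 3) (Qt a b))) *
        Alb.mat x * (((m⁻¹ : (Matrix (Fin 3) (Fin 3) (Qt a b))ˣ) :
          Matrix (Fin 3) (Fin 3) (Qt a b))ᴴ * (m : Matrix (Fin 3) (Fin 3) (Qt a b))ᴴ) := by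
          simp only [Matrix.mul_assoc]
      _ = Alb.mat x := by rw [h1, h2, Matrix.one_mul, Matrix.mul_one]
  · rw [vec_act, vec_act]
    ext1 i
    have h1 : (fun i => κ' * Matrix.vecMul (Alb.vec x) (((m⁻¹)⁻¹ :
        (Matrix (Fin 3) (Fin 3) (Qt a b))ˣ) : Matrix (Fin 3) (Fin 3) (Qt a b)) i) =
        κ' • Matrix.vecMul (Alb.vec x) (m : Matrix (Fin 3) (Fin 3) (Qt a b)) := by
      ext1 i
      rw [inv_inv]
      rfl
    rw [h1, Matrix.smul_vecMul, Matrix.vecMul_vecMul, m.mul_inv, Matrix.vecMul_one]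
    change κ * (κ' * Alb.vec x i) = Alb.vec x i
    rw [← _root_.mul_assoc, h, _root_.one_mul]

end Vale.Agent.P011.E6.H369
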