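import Vale.Agent.P011.E6.H369.ActK
import Vale.Agent.P011.D4.H369.Two

/-!
Tridiagonalisation: a hermitian matrix over octonions becomes, after a change of coordinates, a
symmetric matrix over the ground field.
-/

namespace Vale.Agent.P011.E6.H369

open Vale.Agent.P011.MPQ Vale.Agent.P011.D4 Vale.Agent.P011.D4.Oct

open Matrix

variable {F : Type} [Field F]

/-- The first column of the matrix is that of the identity matrix. -/
def Blk {a b : Fˣ} (m : Matrix (Fin 3) (Fin 3) (Qt a b)) : Prop :=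
  m 0 0 = 1 ∧ m 1 0 = 0 ∧ m 2 0 = 0

/-- The second column of the matrix is that of the identity matrix. -/
def Blk2 {a b : Fˣ} (m : Matrix (Fin 3) (Fin 3) (Qt a b)) : Prop :=
  m 0 1 = 0 ∧ m 1 1 = 1 ∧ m 2 1 = 0

/-- A predicate on the elements, in coordinates, which is stable under the changes of the
generators of the octonion algebra and under the action of matrices. -/
structure Clo (e : Prop) (P : ∀ (a b c : Fˣ) (_ : Fin 3 → Fˣ) (_ : Alb a b c), Prop) : Prop where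
  trip : ∀ {a b c : Fˣ} {g : Fin 3 → Fˣ} {r : Alb a b c}, P a b c g r →
    ∀ {a' b' c' : Fˣ} {i j l : Oct a b c}, Trip a' b' c' i j l →
    ∀ r' : Alb a' b' c', Alb.omapA (emb i j l) r' = r → P a' b' c' g r'
  act : ∀ {a b c : Fˣ} {g : Fin 3 → Fˣ} {r : Alb a b c}, P a b c g r →
    ∀ (m : (Matrix (Fin 3) (Fin 3) (Qt a b))ˣ) (κ : Qt a b) (g' : Fin 3 → Fˣ),
    (m : Matrix (Fin 3) (Fin 3) (Qt a b))ᴴ * dg a b g * (m : Matrix (Fin 3) (Fin 3) (Qt a b)) =
      dg a b g' →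
    nrd κ = nu (m : Matrix (Fin 3) (Fin 3) (Qt a b)) → nrd κ ≠ 0 →
    Blk (m : Matrix (Fin 3) (Fin 3) (Qt a b)) → g' 0 = g 0 →
    (e → Blk2 (m : Matrix (Fin 3) (Fin 3) (Qt a b)) ∧ g' 1 = g 1) →
    ∀ r' : Alb a b c, Alb.act m κ r' = r → P a b c g' r'

section mats

variable {a b : Fˣ}

/-- A diagonal matrix. -/
def diagU (μ ν : Qt a b) (hμ : nrd μ ≠ 0) (hν : nrd ν ≠ 0) :
    (Matrix (Fin 3) (Fin 3) (Qt a b))ˣ where
  val := !![1, 0, 0; 0, (nrd μ)⁻¹ • star μ, 0; 0, 0, (nrd ν)⁻¹ • star ν]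
  inv := !![1, 0, 0; 0, μ, 0; 0, 0, ν]
  val_inv := by
    ext1 i j
    fin_cases i <;> fin_cases j <;> simp [Matrix.mul_apply, Fin.sum_univ_three, star_mul_nrd,
      smul_smul, hμ, hν]
  inv_val := by
    ext1 i j
    fin_cases i <;> fin_cases j <;> simp [Matrix.mul_apply, Fin.sum_univ_three, mul_star_nrd,
      smul_smul, hμ, hν]

/-- The transposition of the last two coordinates. -/
def swpU : (Matrix (Fin 3) (Fin 3) (Qt a b))ˣ where
  val := !![1, 0, 0; 0, 0, 1; 0, 1, 0]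
  inv := !![1, 0, 0; 0, 0, 1; 0, 1, 0]
  val_inv := by
    ext1 i j
    fin_cases i <;> fin_cases j <;> simp [Matrix.mul_apply, Fin.sum_univ_three]
  inv_val := by
    ext1 i j
    fin_cases i <;> fin_cases j <;> simp [Matrix.mul_apply, Fin.sum_univ_three]

/-- A rotation in the plane of the last two coordinates. -/
def rotU (p q : F) (hp : p ≠ 0) (t : Qt a b) (E : F) (hE : E = p + q * nrd t) (h0 : E ≠ 0) :
    (Matrix (Fin 3) (Fin 3) (Qt a b))ˣ where
  val := !![1, 0, 0; 0, 1, -(q / p) • star t; 0, t, 1]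
  inv := !![1, 0, 0; 0, (p / E) • 1, (q / E) • star t; 0, -(p / E) • t, (p / E) • 1]
  val_inv := by
    have eA : p / E + p / E * (q / p * nrd t) = 1 := by
      field_simp
      rw [hE]
    have eB : p / E * (q / p) = q / E := by
      field_simp
    have eC : q / E * nrd t + p / E = 1 := by
      field_simp
      rw [hE]
      ring
    ext1 i j
    fin_cases i <;> fin_cases j <;> simp [Matrix.mul_apply, Fin.sum_univ_three, mul_star_nrd,
      star_mul_nrd, smul_smul]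
    · rw [← add_smul, eA, one_smul]
    · rw [eB, add_neg_cancel]
    · rw [← add_smul, eC, one_smul]
  inv_val := by
    have eD : p / E + q / E * nrd t = 1 := by
      field_simp
      rw [hE]
    have eB : q / p * (p / E) = q / E := by
      field_simp
    have eA : q / p * (p / E * nrd t) + p / E = 1 := by
      field_simp
      rw [hE]
      ring
    ext1 i j
    fin_cases i <;> fin_cases j <;> simp [Matrix.mul_apply, Fin.sum_univ_three, mul_star_nrd,
      star_mul_nrd, smul_smul]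
    · rw [← add_smul, eD, one_smul]
    · rw [eB, neg_add_cancel]
    · rw [← add_smul, eA, one_smul]

/-! The hypotheses on the matrices. -/

theorem blk_diagU (μ ν : Qt a b) (hμ : nrd μ ≠ 0) (hν : nrd ν ≠ 0) :
    Blk (diagU μ ν hμ hν : Matrix (Fin 3) (Fin 3) (Qt a b)) := by
  simp [Blk, diagU]

theorem blk_swpU : Blk ((swpU : (Matrix (Fin 3) (Fin 3) (Qt a b))ˣ) : Matrix (Fin 3) (Fin 3) (Qt a b)) := by
  simp [Blk, swpU]

theorem blk_rotU (p q : F) (hp : p ≠ 0) (t : Qt a b) (E : F) (hE : E = p + q * nrd t)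
    (h0 : E ≠ 0) : Blk (rotU p q hp t E hE h0 : Matrix (Fin 3) (Fin 3) (Qt a b)) := by
  simp [Blk, rotU]

theorem nrd_z : nrd (0 : Qt a b) = 0 := by simp [nrd]

theorem nrd_ng (x : Qt a b) : nrd (-x) = nrd x := by simp [nrd]

theorem nu_of {m : Matrix (Fin 3) (Fin 3) (Qt a b)} {s t : F} {w : Qt a b}
    (h : m * mᴴ = !![1, 0, 0; 0, s • 1, w; 0, star w, t • 1]) : nu m = s * t - nrd w := by
  have e0 : (⟨0, 0⟩ : Oct a b 1) = 0 := rfl
  have e1 : Oct.norm (⟨w, 0⟩ : Oct a b 1) = nrd w := by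
    rw [Oct.norm, nrd_z, mul_zero, sub_zero]
  rw [nu, h]
  simp [Alb.cub, Alb.ofMV, e0, e1]

theorem nu_diagU (μ ν : Qt a b) (hμ : nrd μ ≠ 0) (hν : nrd ν ≠ 0) :
    nrd (((nrd μ)⁻¹ • star μ) * ((nrd ν)⁻¹ • star ν)) =
      nu (diagU μ ν hμ hν : Matrix (Fin 3) (Fin 3) (Qt a b)) := by
  rw [nrd_mul, nrd_sm, nrd_sm, nrd_st, nrd_st, nu_of (s := (nrd μ)⁻¹) (t := (nrd ν)⁻¹) (w := 0)]
  · rw [nrd_z]
    field_simp
    ring
  · ext1 i j
    fin_cases i <;> fin_cases j <;> simp [diagU, Matrix.mul_apply, Fin.sum_univ_three,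
      mul_star_nrd]
    · simp only [nrd_z, nrd_one, zero_smul, add_zero, one_smul]
    · simp only [nrd_z, nrd_sm, nrd_st, zero_smul, add_zero, zero_add]
      congr 1
      field_simp
    · simp only [nrd_z, nrd_sm, nrd_st, zero_smul, add_zero, zero_add]
      congr 1
      field_simp

theorem nu_swpU : nrd (1 : Qt a b) =
    nu ((swpU : (Matrix (Fin 3) (Fin 3) (Qt a b))ˣ) : Matrix (Fin 3) (Fin 3) (Qt a b)) := by
  rw [nrd_one, nu_of (s := 1) (t := 1) (w := 0)]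
  · rw [nrd_z]
    ring
  · ext1 i j
    fin_cases i <;> fin_cases j <;> simp [swpU, Matrix.mul_apply, Fin.sum_univ_three]

theorem nu_rotU (p q : F) (hp : p ≠ 0) (t : Qt a b) (E : F) (hE : E = p + q * nrd t)
    (h0 : E ≠ 0) : nrd ((E / p) • (1 : Qt a b)) =
      nu (rotU p q hp t E hE h0 : Matrix (Fin 3) (Fin 3) (Qt a b)) := by
  rw [nrd_sm, nrd_one, nu_of (s := 1 + (q / p) ^ 2 * nrd t) (t := 1 + nrd t)
    (w := (1 - q / p) • star t)]
  · rw [nrd_sm, nrd_st]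
    field_simp
    rw [hE]
    ring
  · ext1 i j
    fin_cases i <;> fin_cases j <;> simp [rotU, Matrix.mul_apply, Fin.sum_univ_three,
      mul_star_nrd]
    · simp only [nrd_z, nrd_one, zero_smul, add_zero, one_smul]
    · simp only [nrd_z, nrd_one, nrd_ng, nrd_sm, nrd_st, zero_smul, zero_add, add_smul]
    · rw [sub_smul, one_smul, sub_eq_add_neg]
    · rw [sub_smul, one_smul, sub_eq_add_neg]
    · simp only [nrd_z, nrd_one, zero_smul, zero_add, add_smul]
      rw [add_comm]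

/-! The weights. -/

/-- The new weights. -/
def diagG (g : Fin 3 → Fˣ) (μ ν : Qt a b) (hμ : nrd μ ≠ 0) (hν : nrd ν ≠ 0) : Fin 3 → Fˣ :=
  ![g 0, g 1 * (Units.mk0 (nrd μ) hμ)⁻¹, g 2 * (Units.mk0 (nrd ν) hν)⁻¹]

theorem dg_diagU (g : Fin 3 → Fˣ) (μ ν : Qt a b) (hμ : nrd μ ≠ 0) (hν : nrd ν ≠ 0) :
    (diagU μ ν hμ hν : Matrix (Fin 3) (Fin 3) (Qt a b))ᴴ * dg a b g *
      (diagU μ ν hμ hν : Matrix (Fin 3) (Fin 3) (Qt a b)) = dg a b (diagG g μ ν hμ hν) := by
  ext1 i j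
  fin_cases i <;> fin_cases j <;> simp [diagU, diagG, dg, Matrix.mul_apply, Fin.sum_univ_three,
    alg_eq, mul_star_nrd, smul_smul]
  · field_simp
  · field_simp

theorem dg_swpU (g : Fin 3 → Fˣ) :
    ((swpU : (Matrix (Fin 3) (Fin 3) (Qt a b))ˣ) : Matrix (Fin 3) (Fin 3) (Qt a b))ᴴ * dg a b g *
      ((swpU : (Matrix (Fin 3) (Fin 3) (Qt a b))ˣ) : Matrix (Fin 3) (Fin 3) (Qt a b)) =
      dg a b ![g 0, g 2, g 1] := by
  ext1 i j
  fin_cases i <;> fin_cases j <;> simp [swpU, dg, Matrix.mul_apply, Fin.sum_univ_three]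

theorem dg_rotU (g : Fin 3 → Fˣ) (t : Qt a b) (E : Fˣ) (hE : (E : F) = g 1 + g 2 * nrd t) :
    (rotU (g 1 : F) (g 2 : F) (g 1).ne_zero t E hE E.ne_zero :
      Matrix (Fin 3) (Fin 3) (Qt a b))ᴴ * dg a b g *
    (rotU (g 1 : F) (g 2 : F) (g 1).ne_zero t E hE E.ne_zero :
      Matrix (Fin 3) (Fin 3) (Qt a b)) = dg a b ![g 0, E, g 2 * (g 1)⁻¹ * E] := by
  ext1 i j
  fin_cases i <;> fin_cases j <;> simp [rotU, dg, Matrix.mul_apply, Fin.sum_univ_three,
    alg_eq, mul_star_nrd, star_mul_nrd, smul_smul]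
  · rw [← add_smul, hE]
  · rw [← add_smul, hE]
    congr 1
    field_simp
    ring

end mats

section clo

variable {e : Prop} {P : ∀ (a b c : Fˣ) (_ : Fin 3 → Fˣ) (_ : Alb a b c), Prop} {a b c : Fˣ}
  {g : Fin 3 → Fˣ} {r : Alb a b c}

theorem Clo.act' [CharZero F] (hP : Clo e P) (h : P a b c g r)
    (m : (Matrix (Fin 3) (Fin 3) (Qt a b))ˣ) {κ κ' : Qt a b} (hκ : κ * κ' = 1)
    (g' : Fin 3 → Fˣ)
    (hg : (m : Matrix (Fin 3) (Fin 3) (Qt a b))ᴴ * dg a b g *
      (m : Matrix (Fin 3) (Fin 3) (Qt a b)) = dg a b g')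
    (hn : nrd κ = nu (m : Matrix (Fin 3) (Fin 3) (Qt a b)))
    (hb : Blk (m : Matrix (Fin 3) (Fin 3) (Qt a b))) (h0 : g' 0 = g 0)
    (he : e → Blk2 (m : Matrix (Fin 3) (Fin 3) (Qt a b)) ∧ g' 1 = g 1) :
    P a b c g' (Alb.act m⁻¹ κ' r) := by
  refine hP.act h m κ g' hg hn ?_ hb h0 he _ (act_inv m hκ r)
  intro h0
  have h1 := congrArg nrd hκ
  rw [nrd_mul, h0, zero_mul, nrd_one] at h1
  exact zero_ne_one h1

/-- The diagonal step. -/
theorem step_diag [CharZero F] (hP : Clo e P) (h : P a b c g r) (h2 : r.x2 = 0)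
    (h1 : r.x1.snd = 0) (h3 : r.x3.snd = 0) (μ ν : Qt a b) (hμ : nrd μ ≠ 0) (hν : nrd ν ≠ 0)
    {s t : F} (hs : μ * r.x1.fst * star ν = s • 1) (ht : r.x3.fst * star μ = t • 1)
    (he : e → μ = 1) :
    ∃ S : Matrix (Fin 3) (Fin 3) F, P a b c (diagG g μ ν hμ hν) (Alb.ofF S) ∧
      S.transpose = S := by
  have hκ : (((nrd μ)⁻¹ • star μ) * ((nrd ν)⁻¹ • star ν)) * (ν * μ) = 1 := by
    have e1 : (((nrd μ)⁻¹ • star μ) * ((nrd ν)⁻¹ • star ν)) * (ν * μ) =
        (nrd μ)⁻¹ • (star μ * (((nrd ν)⁻¹ • (star ν * ν)) * μ)) := by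
      simp only [smul_mul_assoc, mul_smul_comm, _root_.mul_assoc]
      rw [smul_comm]
    rw [e1, star_mul_nrd, smul_smul, inv_mul_cancel₀ hν, one_smul, _root_.one_mul, star_mul_nrd,
      smul_smul, inv_mul_cancel₀ hμ, one_smul]
  have h' := hP.act' h (diagU μ ν hμ hν) hκ _ (dg_diagU g μ ν hμ hν) (nu_diagU μ ν hμ hν)
    (blk_diagU μ ν hμ hν) rfl (by
      intro hh
      have h1 := he hh
      subst h1
      refine ⟨?_, ?_⟩
      · simp [Blk2, diagU, nrd_one]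
      · apply Units.ext
        simp [diagG, nrd_one])
  set r' := Alb.act (diagU μ ν hμ hν)⁻¹ (ν * μ) r with hr'
  refine ⟨!![r'.d1, t, 0; t, r'.d2, s; 0, s, r'.d3], ?_, ?_⟩
  · have e : (Alb.ofF !![r'.d1, t, 0; t, r'.d2, s; 0, s, r'.d3] : Alb a b c) = r' := by
      have hv : Alb.vec r = 0 := by
        ext1 i
        fin_cases i
        · exact h1
        · exact congrArg Oct.snd h2
        · exact h3
      have hv' : Alb.vec r' = 0 := by
        rw [hr', vec_act, hv, Matrix.zero_vecMul]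
        ext1 i
        exact mul_zero _
      have hm : Alb.mat r' = !![1, 0, 0; 0, μ, 0; 0, 0, ν] * Alb.mat r *
          !![1, 0, 0; 0, μ, 0; 0, 0, ν]ᴴ := by
        rw [hr', mat_act]
        rfl
      have m01 : r'.x3.fst = t • 1 := by
        have := congrFun (congrFun hm 0) 1
        simp [Alb.mat, Matrix.mul_apply, Fin.sum_univ_three] at this
        rw [this, ht]
      have m12 : r'.x1.fst = s • 1 := by
        have := congrFun (congrFun hm 1) 2
        simp [Alb.mat, Matrix.mul_apply, Fin.sum_univ_three] at this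
        rw [this, hs]
      have m20 : r'.x2.fst = 0 := by
        have := congrFun (congrFun hm 2) 0
        simp [Alb.mat, Matrix.mul_apply, Fin.sum_univ_three, h2] at this
        rw [this]
      apply Alb.ext
      · simp [Alb.ofF]
      · simp [Alb.ofF]
      · simp [Alb.ofF]
      · apply Oct.ext
        · simp [Alb.ofF, m12]
        · have := congrFun hv' 0
          change r'.x1.snd = 0 at this
          simp [Alb.ofF, this]
      · apply Oct.ext
        · simp [Alb.ofF, m20]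
        · have := congrFun hv' 1
          change r'.x2.snd = 0 at this
          simp [Alb.ofF, this]
      · apply Oct.ext
        · simp [Alb.ofF, m01]
        · have := congrFun hv' 2
          change r'.x3.snd = 0 at this
          simp [Alb.ofF, this]
    rw [e]
    exact h'
  · ext1 i j
    fin_cases i <;> fin_cases j <;> simp

/-- The rotation step. -/
theorem step_rot [CharZero F] (hP : Clo e P) (hne : ¬ e) (h : P a b c g r)
    (h2 : r.x2.snd = 0) (h3 : r.x3.snd = 0) (hx : nrd r.x3.fst ≠ 0)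
    (hE : ∀ t : Qt a b, (g 1 : F) + g 2 * nrd t ≠ 0) :
    ∃ (g' : Fin 3 → Fˣ) (r' : Alb a b c), P a b c g' r' ∧ r'.x2 = 0 := by
  set t : Qt a b := (nrd r.x3.fst)⁻¹ • (r.x2.fst * r.x3.fst) with ht
  set E : Fˣ := Units.mk0 ((g 1 : F) + g 2 * nrd t) (hE t) with hEd
  have hE' : (E : F) = g 1 + g 2 * nrd t := rfl
  have hp := (g 1).ne_zero
  have h0 := E.ne_zero
  have hκ : (((E : F) / (g 1 : F)) • (1 : Qt a b)) * (((g 1 : F) / E) • (1 : Qt a b)) = 1 := by
    rw [smul_mul_smul_comm, _root_.mul_one]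
    have e1 : (E : F) / (g 1 : F) * ((g 1 : F) / E) = 1 := by
      field_simp
    rw [e1, one_smul]
  have h' := hP.act' h (rotU (g 1 : F) (g 2 : F) (g 1).ne_zero t E hE' h0) hκ _
    (dg_rotU g t E hE') (nu_rotU _ _ _ t E hE' h0) (blk_rotU _ _ _ t E hE' h0) rfl
    (fun hh => absurd hh hne)
  refine ⟨_, _, h', ?_⟩
  set r' := Alb.act (rotU (g 1 : F) (g 2 : F) (g 1).ne_zero t E hE' h0)⁻¹
    (((g 1 : F) / E) • (1 : Qt a b)) r with hr'
  have hm : Alb.mat r' = !![1, 0, 0; 0, ((g 1 : F) / E) • 1, ((g 2 : F) / E) • star t;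
        0, -((g 1 : F) / E) • t, ((g 1 : F) / E) • 1] * Alb.mat r *
      !![1, 0, 0; 0, ((g 1 : F) / E) • 1, ((g 2 : F) / E) • star t;
        0, -((g 1 : F) / E) • t, ((g 1 : F) / E) • 1]ᴴ := by
    rw [hr', mat_act]
    rfl
  have hv : Alb.vec r' = fun i => (((g 1 : F) / E) • (1 : Qt a b)) *
      Matrix.vecMul (Alb.vec r) !![1, 0, 0; 0, 1, -((g 2 : F) / (g 1 : F)) • star t; 0, t, 1]
        i := by
    rw [hr', vec_act]
    rfl
  have e1 : t * star r.x3.fst = r.x2.fst := by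
    rw [ht, smul_mul_assoc, _root_.mul_assoc, mul_star_nrd, mul_smul_comm, smul_smul,
      inv_mul_cancel₀ hx, one_smul, _root_.mul_one]
  apply Oct.ext
  · have := congrFun (congrFun hm 2) 0
    simp [Alb.mat, Matrix.mul_apply, Fin.sum_univ_three] at this
    rw [this, e1]
    simp
  · have := congrFun hv 1
    change r'.x2.snd = _ at this
    rw [this]
    simp [Alb.vec, h2, h3, Matrix.vecMul, dotProduct, Fin.sum_univ_three]

/-- The transposition step. -/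
theorem step_swp [CharZero F] (hP : Clo e P) (hne : ¬ e) (h : P a b c g r)
    (h3 : r.x3 = 0) : ∃ (g' : Fin 3 → Fˣ) (r' : Alb a b c), P a b c g' r' ∧ r'.x2 = 0 := by
  have h' := hP.act' h swpU (_root_.mul_one (1 : Qt a b)) _
    (dg_swpU g) nu_swpU blk_swpU rfl (fun hh => absurd hh hne)
  refine ⟨_, _, h', ?_⟩
  set r' := Alb.act (swpU : (Matrix (Fin 3) (Fin 3) (Qt a b))ˣ)⁻¹ 1 r with hr'
  have hm : Alb.mat r' = !![1, 0, 0; 0, 0, 1; 0, 1, 0] * Alb.mat r *
      !![1, 0, 0; 0, 0, 1; 0, 1, 0]ᴴ := by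
    rw [hr', mat_act]
    rfl
  have hv : Alb.vec r' = fun i => (1 : Qt a b) *
      Matrix.vecMul (Alb.vec r) !![1, 0, 0; 0, 0, 1; 0, 1, 0] i := by
    rw [hr', vec_act]
    rfl
  apply Oct.ext
  · have := congrFun (congrFun hm 2) 0
    simp [Alb.mat, Matrix.mul_apply, Fin.sum_univ_three, h3] at this
    rw [this]
    simp
  · have := congrFun hv 1
    change r'.x2.snd = _ at this
    rw [this]
    simp [Alb.vec, h3, Matrix.vecMul, dotProduct, Fin.sum_univ_three]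

theorem ex_mu {a b : Fˣ} (hab : Aniso a b) (x : Qt a b) :
    ∃ μ : Qt a b, nrd μ ≠ 0 ∧ (∃ t : F, x * star μ = t • 1) ∧ (x = 0 → μ = 1) := by
  by_cases hx : x = 0
  · refine ⟨1, ?_, ⟨0, ?_⟩, fun _ => rfl⟩
    · rw [nrd_one]
      exact one_ne_zero
    · rw [hx, zero_mul, zero_smul]
  · exact ⟨x, fun h0 => hx (hab x h0), ⟨nrd x, mul_star_nrd x⟩, fun h0 => absurd h0 hx⟩

/-- The change of generators. -/
theorem step_trip [CharZero F] (hP : Clo e P) (h : P a b c g r) {a' b' c' : Fˣ}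
    {i j l : Oct a b c} (hT : Trip a' b' c' i j l) :
    ∃ (Φ : Oct a' b' c' ≃ₗ[F] Oct a b c) (r' : Alb a' b' c'), (∀ x, norm (Φ x) = norm x) ∧
      (∀ x : Qt a' b', Φ ⟨x, 0⟩ = qemb i j x) ∧ P a' b' c' g r' ∧
      Φ r'.x1 = r.x1 ∧ Φ r'.x2 = r.x2 ∧ Φ r'.x3 = r.x3 := by
  obtain ⟨Φ, h1, -, -, h4⟩ := exists_emb hT
  refine ⟨Φ, ⟨r.d1, r.d2, r.d3, Φ.symm r.x1, Φ.symm r.x2, Φ.symm r.x3⟩, h4, fun x => ?_,
    hP.trip h hT _ ?_, Φ.apply_symm_apply _, Φ.apply_symm_apply _, Φ.apply_symm_apply _⟩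
  · rw [h1, emb, qemb_zero, zero_mul, add_zero]
  · apply Alb.ext
    · rfl
    · rfl
    · rfl
    · change emb i j l (Φ.symm r.x1) = r.x1
      rw [← h1, Φ.apply_symm_apply]
    · change emb i j l (Φ.symm r.x2) = r.x2
      rw [← h1, Φ.apply_symm_apply]
    · change emb i j l (Φ.symm r.x3) = r.x3
      rw [← h1, Φ.apply_symm_apply]

/-- The last steps. -/
theorem step_fin [CharZero F] (hP : Clo e P) (h : P a b c g r) (hdiv : Division a b c)
    (h2 : r.x2 = 0) (he : e → r.x3 = 0) :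
    ∃ (a' b' c' : Fˣ) (g' : Fin 3 → Fˣ) (S : Matrix (Fin 3) (Fin 3) F),
      P a' b' c' g' (Alb.ofF S) ∧ S.transpose = S := by
  obtain ⟨a', b', c', i, j, l, hT, ⟨x, hx⟩, ⟨y, hy⟩⟩ :=
    D4.H369.exists_trip_of_two hdiv r.x1 r.x3
  obtain ⟨Φ, r', hn, hq, hP', e1, e2, e3⟩ := step_trip hP h hT
  have f1 : r'.x1 = ⟨x, 0⟩ := Φ.injective (by rw [e1, hq, hx])
  have f3 : r'.x3 = ⟨y, 0⟩ := Φ.injective (by rw [e3, hq, hy])
  have f2 : r'.x2 = 0 := Φ.injective (by rw [e2, h2, map_zero])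
  have hab : Aniso a' b' := (aniso_of_trip hdiv hT).1
  obtain ⟨μ, hμ, ⟨t, ht⟩, hμ1⟩ := ex_mu hab y
  obtain ⟨ν, hν, ⟨s, hs⟩, -⟩ := ex_mu hab (μ * x)
  obtain ⟨S, hS, hS'⟩ := step_diag hP hP' f2 (by rw [f1]) (by rw [f3]) μ ν hμ hν
    (s := s) (t := t) (by rw [f1]; exact hs) (by rw [f3]; exact ht) (fun hh => hμ1 (by
      have h0 : r'.x3 = 0 := Φ.injective (by rw [e3, he hh, map_zero])
      rw [f3] at h0
      exact congrArg Oct.fst h0))
  exact ⟨a', b', c', _, S, hS, hS'⟩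

/-- **Tridiagonalisation.** -/
theorem Clo.lanczos [CharZero F] (hP : Clo e P) (h : P a b c g r) (hdiv : Division a b c)
    (hE : ∀ t : Oct a b c, (g 1 : F) + g 2 * norm t ≠ 0) (he : e → r.x2 = 0 ∧ r.x3 = 0) :
    ∃ (a' b' c' : Fˣ) (g' : Fin 3 → Fˣ) (S : Matrix (Fin 3) (Fin 3) F),
      P a' b' c' g' (Alb.ofF S) ∧ S.transpose = S := by
  by_cases h2 : r.x2 = 0
  · exact step_fin hP h hdiv h2 fun hh => (he hh).2
  have hne : ¬ e := fun hh => h2 (he hh).1
  by_cases h3 : r.x3 = 0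
  · obtain ⟨g', r', h', h2'⟩ := step_swp hP hne h h3
    exact step_fin hP h' hdiv h2' fun hh => absurd hh hne
  obtain ⟨a', b', c', i, j, l, hT, ⟨x, hx⟩, ⟨y, hy⟩⟩ :=
    D4.H369.exists_trip_of_two hdiv r.x2 r.x3
  obtain ⟨Φ, r', hn, hq, hP', e1, e2, e3⟩ := step_trip hP h hT
  have f2 : r'.x2 = ⟨x, 0⟩ := Φ.injective (by rw [e2, hq, hx])
  have f3 : r'.x3 = ⟨y, 0⟩ := Φ.injective (by rw [e3, hq, hy])
  have hdiv' : Division a' b' c' := (aniso_of_trip hdiv hT).2.2.2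
  have hab : Aniso a' b' := (aniso_of_trip hdiv hT).1
  obtain ⟨g', r'', h'', h2''⟩ := step_rot hP hne hP' (by rw [f2]) (by rw [f3])
    (by
      intro h0
      have h1 := hab _ h0
      rw [f3] at h1
      have h4 : y = 0 := h1
      apply h3
      rw [hy, h4, qemb_zero])
    (fun t => by
      have h1 := hE (Φ ⟨t, 0⟩)
      rw [hn] at h1
      have e0 : norm (⟨t, 0⟩ : Oct a' b' c') = nrd t := by
        rw [Oct.norm, nrd_z, mul_zero, sub_zero]
      rwa [e0] at h1)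
  exact step_fin hP h'' hdiv' h2'' fun hh => absurd hh hne

end clo

end Vale.Agent.P011.E6.H369
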